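import Vale.Agent.P275TS.Defs
import Vale.Agent.P275TT.Top
import Vale.Agent.P275NB.Bet

/-!
# P275, the family over the punctured line: the arithmetic of the walls
-/

open scoped Real
open Matrix Finset
open Vale.Agent.P275Z Vale.Agent.P275BW
open Vale.Agent.P275ST (zeta)
open Vale.Agent.P275RL (NRt ta)
open P275BC (Reg)

noncomputable section

namespace Vale.Agent.P275TS

variable {n : ℕ} {d : ℤ} {z : ℂ}

theorem roots_tri {R : Matrix (Fin n) (Fin n) ℂ} (h : R ∈ bor n) :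
    R.charpoly.roots = univ.val.map fun a => R a a := by
  rw [charpoly_of_isUpperTriangular R h, ← Polynomial.roots_multiset_prod_X_sub_C
    (univ.val.map fun a => R a a), Multiset.map_map]
  rfl

theorem roots_dY : (diagonal (dY n z)).charpoly.roots = univ.val.map (dY n z) := by
  rw [roots_tri (R := diagonal (dY n z)) (blockTriangular_diagonal _)]
  simp only [diagonal_apply_eq]

theorem gd_iff : gd n d z ↔ (∀ a b (k : ℤ), dY n z a - dY n z b = k → k = 0) ∧
    ∀ s : Finset (Fin n), s.Nonempty → s ≠ univ → ∀ k : ℤ,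
      ∑ a ∈ s, dY n z a - s.card * d / n ≠ k := by
  rw [gd, Gen, roots_dY]
  refine and_congr (by simp) ⟨fun h s h0 h1 k => ?_, fun h t ht h0 h1 k => ?_⟩
  · have := h (s.val.map (dY n z)) (Multiset.map_le_map (val_le_iff.2 (subset_univ s)))
      (by simpa using h0.ne_empty) (fun e => h1 ?_) k
    · rwa [Multiset.card_map] at this
    · have := congrArg Multiset.card e
      rw [Multiset.card_map, Multiset.card_map] at this
      exact eq_univ_of_card _ this
  · have := Multiset.mem_powersetCard.2 ⟨ht, rfl⟩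
    rw [Multiset.powersetCard_map, Multiset.mem_map] at this
    obtain ⟨u, hu, rfl⟩ := this
    have := h ⟨u, Multiset.nodup_of_le (Multiset.mem_powersetCard.1 hu).1 univ.2⟩
      (nonempty_iff_ne_empty.2 fun e => h0 ?_) (fun e => h1 ?_) k
    · rwa [Multiset.card_map]
    · rw [show u = 0 from congrArg Finset.val e, Multiset.map_zero]
    · rw [show u = univ.val from congrArg Finset.val e]

theorem dY_eq (a : Fin n) : dY n z a = -(eY n a * z) := by
  rw [dY, mu, eY]; split_ifs <;> push_cast <;> ring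

theorem dY_sub (a b : Fin n) : dY n z a - dY n z b = 0 ∨ dY n z a - dY n z b = n ^ 2 * z ∨
    dY n z a - dY n z b = -(n ^ 2 * z) := by
  simp only [dY, mu]
  split_ifs
  · exact .inl (sub_self _)
  · exact .inr (.inr (by ring))
  · exact .inr (.inl (by ring))
  · exact .inl (sub_self _)

theorem res_iff (hn : 2 ≤ n) : (∀ a b (k : ℤ), dY n z a - dY n z b = k → k = 0) ↔
    ∀ k : ℤ, n ^ 2 * z = k → k = 0 := by
  refine ⟨fun h k e => h ⟨1, hn⟩ ⟨0, by omega⟩ k ?_, fun h a b k e => ?_⟩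
  · rw [← e]; simp [dY, mu]; ring
  · rcases dY_sub (z := z) a b with c | c | c <;> rw [c] at e
    · exact_mod_cast e.symm
    · exact h k e
    · exact neg_eq_zero.1 (h (-k) (by rw [Int.cast_neg, ← e, neg_neg]))

theorem sum_eY (s : Finset (Fin n)) (h0 : s.Nonempty) (h1 : s ≠ univ) :
    ∑ a ∈ s, eY n a ≠ 0 ∧ |∑ a ∈ s, eY n a| ≤ n ^ 2 := by
  have c0 := card_pos.2 h0
  have c1 : s.card < n := by simpa using (card_lt_iff_ne_univ s).2 h1
  have e : ∑ a ∈ s, eY n a = n * (n * (s.filter fun a => a.1 = 0).card - s.card) := by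
    rw [card_filter, card_eq_sum_ones s]
    push_cast
    rw [mul_sum, ← sum_sub_distrib, mul_sum]
    exact sum_congr rfl fun a _ => by rw [eY]; split_ifs <;> ring
  have c2 : (s.filter fun a => a.1 = 0).card ≤ 1 :=
    card_le_one.2 fun a ha b hb => Fin.ext ((mem_filter.1 ha).2.trans (mem_filter.1 hb).2.symm)
  rw [e, abs_mul, sq, Nat.abs_cast]
  generalize (s.filter fun a => a.1 = 0).card = m at c2
  generalize s.card = c at c0 c1
  have : (n * m - c : ℤ) ≠ 0 ∧ |(n * m - c : ℤ)| ≤ n := by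
    rw [abs_le]; interval_cases m <;> omega
  exact ⟨mul_ne_zero (by omega) this.1, mul_le_mul_of_nonneg_left this.2 (by omega)⟩

/-- the walls lie in a lattice -/
theorem wall (hn : 2 ≤ n) (h : ¬gd n d z) : ∃ k : ℤ, ((n ^ 3).factorial : ℂ) * z = k := by
  have key : ∀ m k : ℤ, m ≠ 0 → |m| ≤ n ^ 3 → m * z = k →
      ∃ k : ℤ, ((n ^ 3).factorial : ℂ) * z = k := fun m k h0 h1 e => by
    obtain ⟨c, hc⟩ : m ∣ ((n ^ 3).factorial : ℤ) := Int.natAbs_dvd.1 (Int.natCast_dvd_natCast.2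
      (Nat.dvd_factorial (Int.natAbs_pos.2 h0) (by zify; exact h1)))
    refine ⟨c * k, ?_⟩
    rw [← Int.cast_natCast, hc]; push_cast; rw [← e]; ring
  have n0 : (n : ℂ) ≠ 0 := Nat.cast_ne_zero.2 (by omega)
  have n1 : (1 : ℤ) ≤ n := by omega
  rw [gd_iff, res_iff hn, not_and_or] at h
  rcases h with h | h <;> push Not at h
  · obtain ⟨k, e, -⟩ := h
    exact key (n ^ 2) k (by positivity) (by
      rw [abs_of_nonneg (by positivity)]; exact pow_le_pow_right₀ n1 (by omega)) (by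
      push_cast; exact e)
  · obtain ⟨s, h0, h1, k, e⟩ := h
    obtain ⟨a, b⟩ := sum_eY s h0 h1
    refine key (n * ∑ a ∈ s, eY n a) (-(n * k + s.card * d)) (mul_ne_zero (by omega) a) ?_ ?_
    · rw [abs_mul, Nat.abs_cast, pow_succ']
      exact mul_le_mul_of_nonneg_left b (by omega)
    · simp only [dY_eq, sum_neg_distrib, ← sum_mul] at e
      push_cast
      rw [← e]
      field_simp
      ring

theorem gd_zero (cop : IsCoprime (n : ℤ) d) : gd n d 0 := by
  have : dY n 0 = fun _ => 0 := funext fun _ => zero_mul _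
  rw [gd, this, diagonal_zero]
  exact P275NB.gen_zero cop

theorem gd_of (hn : 2 ≤ n) (j : ℤ) (h : j < ((n ^ 3).factorial : ℝ) * z.re)
    (h' : ((n ^ 3).factorial : ℝ) * z.re < j + 1) : gd n d z := by
  by_contra c
  obtain ⟨k, e⟩ := wall hn c
  have : ((n ^ 3).factorial : ℝ) * z.re = k := by simpa using congrArg Complex.re e
  rw [this] at h h'
  norm_cast at h h'
  omega

theorem gd_opn (hn : 2 ≤ n) : IsOpen {z | gd n d z} := by
  have N0 : ((n ^ 3).factorial : ℂ) ≠ 0 := Nat.cast_ne_zero.2 (Nat.factorial_ne_zero _)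
  have := ((Complex.isClosedEmbedding_intCast.isClosedMap {k | ¬gd n d (k / (n ^ 3).factorial)}
    (isClosed_discrete _)).preimage (continuous_const_mul ((n ^ 3).factorial : ℂ))).isOpen_compl
  convert this using 1
  ext z
  refine ⟨fun h ⟨k, a, b⟩ => a ?_, fun h => not_not.1 fun c => h ?_⟩
  · rw [b, mul_div_cancel_left₀ _ N0]; exact h
  · obtain ⟨k, e⟩ := wall hn c
    exact ⟨k, by rw [Set.mem_ofPred_eq, ← e, mul_div_cancel_left₀ _ N0]; exact c, e.symm⟩

theorem gd_im (hn : 2 ≤ n) (h : z.im ≠ 0) : gd n d z := by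
  by_contra c
  obtain ⟨k, e⟩ := wall hn c
  simpa [h, Nat.factorial_ne_zero] using congrArg Complex.im e

theorem tY_ew (a : Fin n) : tY n d (fun _ => ew z) a = zeta n d * ta (dY n z a) := by
  rw [tY, ew, ← Complex.exp_int_mul, ta, dY_eq]
  congr 2; ring

theorem prod_tY (s : Finset (Fin n)) : ∏ a ∈ s, tY n d (fun _ => ew z) a = 1 ↔
    ∃ k : ℤ, ∑ a ∈ s, dY n z a - s.card * d / n = k := by
  have : ∏ a ∈ s, tY n d (fun _ => ew z) a =
      (P275TT.ex (∑ a ∈ s, dY n z a - s.card * d / n))⁻¹ := by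
    simp only [tY_ew, prod_mul_distrib, prod_const, ta, ← Complex.exp_sum, ← mul_sum]
    rw [zeta, ← Complex.exp_nat_mul, ← Complex.exp_add, P275TT.ex, ← Complex.exp_neg]
    congr 1; ring
  rw [this, inv_eq_one, ← P275TT.ex_zero, P275TT.ex_eq_iff]
  simp only [zero_add]

theorem ew_pow : ew z ^ n ^ 2 = 1 ↔ ∃ k : ℤ, n ^ 2 * z = k := by
  have : ew z ^ n ^ 2 = P275TT.ex (n ^ 2 * z) := by
    rw [ew, ← Complex.exp_nat_mul, P275TT.ex]; congr 1; push_cast; ring
  rw [this, ← P275TT.ex_zero, P275TT.ex_eq_iff]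
  simp only [zero_add]

theorem ew_one : ew z = 1 ↔ ∃ k : ℤ, z = k := by
  rw [show ew z = P275TT.ex z from rfl, ← P275TT.ex_zero, P275TT.ex_eq_iff]
  simp only [zero_add]

theorem prod_univ (hn : 2 ≤ n) {w : Fin 1 → ℂ} (h : w 0 ≠ 0) : ∏ a, tY n d w a = 1 := by
  have e : w = fun _ => ew (Complex.log (w 0) / (2 * π * Complex.I)) := funext fun i => by
    rw [ew, mul_div_cancel₀ _ Complex.two_pi_I_ne_zero, Complex.exp_log h, Subsingleton.elim i 0]
  rw [e, prod_tY]
  refine ⟨-d, ?_⟩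
  simp only [dY, ← mul_sum, sum_mu, card_fin]
  rw [mul_div_cancel_left₀ _ (Nat.cast_ne_zero.2 (by omega))]
  simp

theorem adp (hn : 2 ≤ n) : AdP (UY n d) (tY n d) := by
  classical
  let F : (Fin 1 → ℂ) → ℂ := fun w => (∑ k ∈ range (n ^ 2), w 0 ^ k) *
    ∏ s ∈ univ.filter fun s : Finset (Fin n) => s.Nonempty ∧ s ≠ univ, (∏ a ∈ s, tY n d w a - 1)
  have e : UY n d = {w ∈ {w ∈ Set.univ | w 0 ≠ 0} | F w ≠ 0} := Set.ext fun w => by
    simp +contextual [UY, F, P275BC.Gnc, prod_univ hn, prod_ne_zero_iff, sub_ne_zero]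
  have r : ∀ a, Reg {w ∈ Set.univ | w 0 ≠ 0} fun w => tY n d w a := fun a =>
    (Reg.const _).mul ((Reg.coord 0).zpow (fun _ h => h.2) _)
  have c : ∀ a, ContinuousOn (fun w => tY n d w a) {w ∈ Set.univ | w 0 ≠ 0} := fun a =>
    continuousOn_const.mul ((continuous_apply 0).continuousOn.zpow₀ _ fun _ h => .inl h.2)
  refine ⟨?_, ?_, fun a => (r a).mono fun w h => ⟨trivial, h.1⟩, fun _ h => h.2.2⟩ <;> rw [e]
  · exact ContinuousOn.isOpen_inter_preimage (f := F) ((Continuous.continuousOn (by fun_prop)).mul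
      (continuousOn_finsetProd _ fun _ _ => (continuousOn_finsetProd _ fun a _ => c a).sub
        continuousOn_const)) (isOpen_univ.inter (isOpen_ne_fun (continuous_apply 0)
        continuous_const)) isOpen_ne
  · exact (LZ.univ.ne (.coord 0)).ne ((Reg.sum _ fun _ _ => (Reg.coord 0).pow _).mul
      (.prod _ fun _ _ => (Reg.prod _ fun a _ => r a).sub (.const 1)))

/-- **ARI** -/
theorem ari (hn : 2 ≤ n) (cop : IsCoprime (n : ℤ) d) : ARI n d where
  gen R h z e := by rw [gd, Gen, Gen, roots_tri h, roots_dY, funext e]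
  ty _ := tY_ew
  nrt _ h i j k k0 e := k0 ((gd_iff.1 h).1 i j k e)
  mem z h := by
    obtain ⟨a, b⟩ := gd_iff.1 h
    have w0 : ew z ≠ 0 := Complex.exp_ne_zero _
    have n0 : (n : ℂ) ≠ 0 := Nat.cast_ne_zero.2 (by omega)
    refine ⟨w0, fun e => ?_, prod_univ hn w0, fun s h0 h1 e => ?_⟩
    · obtain ⟨k, c⟩ := ew_pow.1 (sub_eq_zero.1 (by rw [← geom_sum_mul, e, zero_mul]) :
        ew z ^ n ^ 2 = 1)
      rw [(res_iff hn).1 a k c, Int.cast_zero, mul_eq_zero, or_iff_right (pow_ne_zero _ n0)] at c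
      simp [c, ew, n0] at e
    · exact ((prod_tY s).1 e).elim (b s h0 h1)
  of z h c := by
    refine gd_iff.2 ⟨(res_iff hn).2 fun k e => ?_, fun s h0 h1 k e =>
      h.2.2.2 s h0 h1 ((prod_tY s).2 ⟨k, e⟩)⟩
    have := geom_sum_mul (ew z) (n ^ 2)
    rw [ew_pow.2 ⟨k, e⟩, sub_self, mul_eq_zero, or_iff_right h.2.1, sub_eq_zero, ew_one] at this
    obtain ⟨j, rfl⟩ := this
    rw [c j rfl, Int.cast_zero, mul_zero] at e
    exact_mod_cast e.symm
  ad := adp hn
  zero := gd_zero cop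
  im _ := gd_im hn
  opn := gd_opn hn
  cut := by
    obtain ⟨N, hN⟩ : ∃ N : ℝ, N = (n ^ 3).factorial := ⟨_, rfl⟩
    have N1 : 1 ≤ N := hN ▸ Nat.one_le_cast.2 (Nat.factorial_pos _)
    have e : N * N⁻¹ = 1 := mul_inv_cancel₀ (by positivity)
    have p : 0 < N⁻¹ := by positivity
    have p' : N⁻¹ ≤ 1 := inv_le_one_of_one_le₀ N1
    refine ⟨N⁻¹ / 2, N⁻¹ / 4, by positivity, by linarith, by linarith, fun z h => ?_⟩
    rcases h with h | h <;> rw [abs_lt] at h
    · refine gd_of hn 0 ?_ ?_ <;> rw [← hN] <;> push_cast <;> nlinarith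
    · refine gd_of hn (-(n ^ 3).factorial) ?_ ?_ <;> push_cast <;> rw [← hN] <;> nlinarith

/-- the plane without the walls -/
theorem dom (hn : 2 ≤ n) (cop : IsCoprime (n : ℤ) d) : ∃ ε, P275TT.Dom {z | gd n d z} ε := by
  obtain ⟨N, hN⟩ : ∃ N : ℝ, N = (n ^ 3).factorial := ⟨_, rfl⟩
  have N1 : 1 ≤ N := hN ▸ Nat.one_le_cast.2 (Nat.factorial_pos _)
  have e : N * N⁻¹ = 1 := mul_inv_cancel₀ (by positivity)
  refine ⟨N⁻¹, gd_opn hn, by positivity, inv_le_one_of_one_le₀ N1, fun z h => gd_im hn (ne_of_gt h),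
    fun z h => not_not.1 fun c => ?_, fun z h h' => gd_of hn ((n ^ 3).factorial - 1) ?_ ?_⟩
  · obtain ⟨k, a⟩ := wall hn c
    have b : N * z.re = k := by simpa [hN] using congrArg Complex.re a
    have : |(k : ℝ)| < 1 := by
      rw [← b, abs_mul, abs_of_pos (by positivity), ← e]
      exact mul_lt_mul_of_pos_left h (by positivity)
    rw [Int.abs_lt_one_iff.1 (show |k| < 1 by exact_mod_cast this), Int.cast_zero, mul_eq_zero,
      or_iff_right (Nat.cast_ne_zero.2 (Nat.factorial_ne_zero _))] at a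
    exact c (a ▸ gd_zero cop)
  all_goals push_cast; rw [← hN]; nlinarith

end Vale.Agent.P275TS
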