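import Vale.Agent.P275TS.Tot
import Vale.Agent.P275TX.Tw
import Vale.Agent.P275HE.Bet
import Vale.Agent.P275HE.TyY

/-!
# P275, the family over the punctured line: the data for the Tate trick
-/

set_option linter.unusedSectionVars false

open Set Function Topology Matrix
open Vale.Agent.P275GC (At)
open Vale.Agent.P275NA (Cy)
open Vale.Agent.P275MO Vale.Agent.P275Z Vale.Agent.P275RG Vale.Agent.P275BW Vale.Agent.P275MK
open Vale.Agent.P275B
open Vale.Agent.P275XB (Ok)
open Vale.Agent.P275HE (PHI phi o0 Om hty bet_iter iter_dr)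

noncomputable section

namespace Vale.Agent.P275TS

variable {C : Type} [TopologicalSpace C] [T2Space C] [CompactSpace C] {A : At C} {l : Cy A ℂ}
  {g n m a a' : ℕ} {d : ℤ} (hn : 2 ≤ n) (h : ARI n d) (D : RHD A l g n d)

section hecke

variable {hn} (ph : PHI A l (tauY hn) (o0 hn) (0 : Fin 1) n) {y : DD A l d hn}
  (hy : (y.1.η (0 : Fin 1)).im ≠ 0)

include hy in
theorem om_DD : y.1 ∈ Om A l (tauY hn) (0 : Fin 1) := ⟨by rw [y.2.1, Complex.one_im], hy⟩

include ph hy in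
theorem η_iter : ((phi (o0 hn))^[n] y.1).η (0 : Fin 1) = y.1.η (0 : Fin 1) + 1 := by
  rw [ph.iter_η (om_DD hy), y.2.1, mul_one]
  exact congrArg (y.1.η (0 : Fin 1) + ·) ph.one

include h ph hy in
theorem iter_DD : (phi (o0 hn))^[n] y.1 ∈ DD A l d hn :=
  ⟨(ph.iter_lam _ _).trans y.2.1, h.im _ (by simpa [η_iter ph hy] using hy)⟩

/-- **the Hecke map is a deck transformation** -/
theorem πS_iter (X : BV a m (epM : FY n g d → _) MF.pt) :
    πS hn h D X ⟨_, iter_DD h ph hy⟩ = πS hn h D X y := by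
  obtain ⟨i, hi⟩ := D.cov y.1.x
  have b : y.1 ∈ DR A l d (tauY hn) (D.V i) := ⟨y.2.1, hi, (gen_DD h _).2 y.2.2⟩
  have b' := iter_dr (hty hn) ph (om_DD hy) b n
  obtain ⟨p, p', h1, h2, -, h3, -⟩ := bet_iter D (hty hn) ph q_bor i n (om_DD hy) b b'
  refine πS_eq hn h D X hi (ph.iter_x _ _) ((tvD_q h D hi).trans h1)
    ((tvD_q h D b'.2.1).trans h2) h3 ?_
  rw [η_iter ph hy, ew, mul_add, mul_one, Complex.exp_add, Complex.exp_two_pi_mul_I, mul_one, ew]

end hecke

variable [o : Ok g n d] (X : BV a (m + 1) (epM : FY n g d → _) MF.pt)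
  (Y : BN g 0 d (le_refl (bor n)) a' m)

/-- **BASE** -/
def dt0 : P275TX.Dt where
  b := 1
  d := m
  D := _
  E := _
  B := crv A
  c := cv D
  M := X.vr
  Z := Y.vr
  F := FS hn h D X
  G := FZ D Y
  e := nlM (one_mem h) tY_one
  i y := πS hn h D X (jS hn h y)
  f₀ x := MQ.par x 0
  f := fS hn h D X
  conn := D.conn
  hm := hm_S hn h D X Y
  reg := reg_par X 0
  inv := fS_inv hn h D X
  ne := Quot.ind fun z => z.2.1.1
  rng := (range_nlM _ _).trans (Set.ext fun _ => ⟨fun k => congrFun k 0, fun k =>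
    funext fun j => (Subsingleton.elim 0 j) ▸ k⟩)
  cemb := cemb_nlM X _ _ Y
  sbm x _ := sbm_crd X o.hn h.ad 0 1 x

include h in
theorem ex_X (hm : m = 2 * P275ST.dimR g n + 2 * nr n) :
    ∃ a, Nonempty (BV a (m + 1) (epM : FY n g d → _) MF.pt) :=
  ⟨_, bvM (d := d) h.ad (by rw [hm, Fintype.card_fin])⟩

end Vale.Agent.P275TS
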