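import Vale.Agent.P275BW.Mf

/-!
# P275, the family over the punctured line: parameters
-/

open scoped Real
open Matrix
open Vale.Agent.P275Z Vale.Agent.P275BW
open Vale.Agent.P275ST (zeta)
open Vale.Agent.P275RL (NRt ta)

noncomputable section

namespace Vale.Agent.P275TS

variable (n : ℕ) (d : ℤ)

/-- the exponents of the eigenvalues -/
def eY (a : Fin n) : ℤ := -(n * if (a : ℕ) = 0 then (1 : ℤ) - n else 1)

/-- the eigenvalues of the local monodromy -/
def tY (w : Fin 1 → ℂ) (a : Fin n) : ℂ := zeta n d * w 0 ^ eY n a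

/-- the punctured line -/
def UY : Set (Fin 1 → ℂ) :=
  {w | w 0 ≠ 0 ∧ ∑ k ∈ Finset.range (n ^ 2), w 0 ^ k ≠ 0 ∧ P275BC.Gnc (tY n d w)}

/-- the covering map -/
def ew (z : ℂ) : ℂ := Complex.exp (2 * π * Complex.I * z)

/-- the diagonal of the residue -/
def dY (z : ℂ) (a : Fin n) : ℂ := z * mu n a

/-- generic parameters -/
def gd (z : ℂ) : Prop := Gen d (diagonal (dY n z))

/-- **ARI**: the arithmetic of the walls -/
structure ARI : Prop where
  gen : ∀ R ∈ bor n, ∀ z, (∀ a, R a a = dY n z a) → (Gen d R ↔ gd n d z)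
  ty : ∀ z a, tY n d (fun _ => ew z) a = zeta n d * ta (dY n z a)
  nrt : ∀ z, gd n d z → NRt (dY n z) (dY n z)
  mem : ∀ z, gd n d z → (fun _ => ew z) ∈ UY n d
  of : ∀ z, (fun _ => ew z) ∈ UY n d → (∀ k : ℤ, z = k → k = 0) → gd n d z
  ad : AdP (UY n d) (tY n d)
  zero : gd n d 0
  im : ∀ z : ℂ, z.im ≠ 0 → gd n d z
  opn : IsOpen {z | gd n d z}
  cut : ∃ x ε : ℝ, 0 < ε ∧ ε < x ∧ x + ε < 1 ∧
    ∀ z : ℂ, |z.re - x| < ε ∨ |z.re - (x - 1)| < ε → gd n d z

end Vale.Agent.P275TS
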