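import Vale.Agent.P275TS.Defs

/-!
# P275, the family over the punctured line: the logarithm of the local monodromy
-/

open scoped Real Matrix.Norms.Operator
open Set Function Topology Matrix
open Vale.Agent.P275Z Vale.Agent.P275BW
open Vale.Agent.P281Z.Hm (Mx)
open Vale.Agent.P275ST (zeta)
open Vale.Agent.P275RH (cwd)
open Vale.Agent.P275RL (ex Lg Lg_tri Lg_ex_tri Lg_semi Lg_cont NRt ta ex_tri mon_eq wv_cont)

noncomputable section

namespace Vale.Agent.P275TS

/-- a saturated embedding induces an embedding -/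
theorem emb_quot {E Q E' Q' : Type} [TopologicalSpace E] [TopologicalSpace Q]
    [TopologicalSpace E'] [TopologicalSpace Q'] {ϖ : E → Q} {ϖ' : E' → Q'} {g : E → E'}
    {G : Q → Q'} (hq : IsQuotientMap ϖ) (hq' : IsOpenQuotientMap ϖ') (hg : IsInducing g)
    (e : ∀ a, G (ϖ a) = ϖ' (g a)) (hi : Injective G) (hs : ∀ a' q, ϖ' a' = G q → a' ∈ range g) :
    IsEmbedding G := by
  have hc : Continuous G := hq.continuous_iff.2
    ((hq'.continuous.comp hg.continuous).congr fun a => (e a).symm)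
  refine ⟨⟨le_antisymm hc.le_induced fun O hO => ?_⟩, hi⟩
  obtain ⟨O', h1, h2⟩ := hg.isOpen_iff.1 (hO.preimage hq.continuous)
  refine ⟨_, hq'.isOpenMap _ h1, Set.ext fun q => ⟨fun ⟨a', k, l⟩ => ?_, fun k => ?_⟩⟩
  · obtain ⟨a, rfl⟩ := hs a' q l
    exact hi ((e a).trans l) ▸ h2.le k
  · obtain ⟨a, rfl⟩ := hq.surjective q
    exact ⟨g a, h2.ge k, (e a).symm⟩

variable {n g : ℕ} {d : ℤ} (hn : 2 ≤ n) (h : ARI n d)

variable (g n d) in
/-- framed objects -/
abbrev FY : Type := MF g (UY n d) (tY n d)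

variable (g n d) in
/-- the family -/
abbrev MY : Type := MQ g (UY n d) (tY n d)

include hn in
theorem diag_q {R : Mx (Fin n)} (hR : R ∈ qY n) (a : Fin n) : R a a = dY n (zY n R) a :=
  let ⟨_, _, k⟩ := hR
  (zY_eq hn k).symm ▸ k a

include hn h in
theorem gd_q (p : BFr g d (qY n)) : gd n d (zY n p.1.1) :=
  (h.gen _ p.2.1.1 _ (diag_q hn p.2.1)).1 p.2.2.1

/-- forget the logarithm -/
def prF (p : BFr g d (qY n)) : FY n g d :=
  have k := ex_tri p.2.1.1 (-(2 * π * Complex.I))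
  ⟨(fun _ => ew (zY n p.1.1), p.1.2), h.mem _ (gd_q hn h p),
    mem_of_eq_of_mem p.2.2.2 ((bor n).smul_mem k.1 _), fun a => by
      rw [h.ty, p.2.2.2, ← diag_q hn p.2.1]
      exact congrArg (zeta n d * ·) (k.2 a)⟩

theorem zY_rl {p p' : BFr g d (qY n)} (k : BFr.Rl (tauY hn) p p') : zY n p'.1.1 = zY n p.1.1 := by
  obtain ⟨s, a, b, c, -⟩ := k
  have := congrFun ((tauY hn).conj _ (inv_mem_bor a b) (det_inv_ne b) _ p.2.1).2 (0 : Fin 1)
  rw [nonsing_inv_nonsing_inv _ b.isUnit, ← c] at this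
  exact this

/-- the parameter -/
def zB : Bet g d (tauY hn) → ℂ := Quot.lift (fun p => zY n p.1.1) fun _ _ k => (zY_rl hn k).symm

/-- forget the logarithm -/
def prY : Bet g d (tauY hn) → MY n g d := Quot.map (prF hn h) fun _ _ k =>
  ⟨congrArg (fun z _ => ew z) (zY_rl hn k), let ⟨s, a, b, _, c⟩ := k; ⟨s, a, b, c⟩⟩

theorem prY_map (t : Aut g n) (y) : prY hn h (P275B.map _ t y) = (prY hn h y).map t := by
  obtain ⟨z, rfl⟩ := P275B.pt_onto y
  rfl

theorem zB_map (t : Aut g n) (y : Bet g d (tauY hn)) : zB hn (P275B.map _ t y) = zB hn y := by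
  obtain ⟨z, rfl⟩ := P275B.pt_onto y
  rfl

/-- the logarithm of the local monodromy -/
def lgR (z : ℂ) (ρ : Tup g n) : Mx (Fin n) := Lg (dY n z) ((zeta n d)⁻¹ • wv ρ (cwd g))

include hn h in
theorem res_q (p : BFr g d (qY n)) : p.1.1 = lgR (d := d) (zY n p.1.1) p.1.2 := by
  have e : (fun a => p.1.1 a a) = dY n (zY n p.1.1) := funext (diag_q hn p.2.1)
  rw [lgR, p.2.2.2, mon_eq, inv_smul_smul₀ zeta_ne, ← e]
  exact (Lg_ex_tri p.2.1.1 (e ▸ h.nrt _ (gd_q hn h p))).symm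

theorem ex_prF (x : FY n g d) {z : ℂ} (k : gd n d z) (e : ew z = x.1.1 0) :
    ∃ p, prF hn h p = x ∧ zY n p.1.1 = z := by
  have e' : x.1.1 = fun _ => ew z := funext fun j => by rw [Subsingleton.elim j 0, e]
  obtain ⟨h1, h2, h3⟩ := Lg_tri (h.nrt _ k) ((bor n).smul_mem x.2.2.1 (zeta n d)⁻¹) fun a => by
    simp [x.2.2.2, e', h.ty, zeta_ne]
  have h4 := zY_eq hn h2
  exact ⟨⟨(_, x.1.2), ⟨h1, z, h2⟩, (h.gen _ h1 z h2).2 k, (smul_inv_smul₀ zeta_ne _).symm.trans
    (congrArg (zeta n d • ·) h3.symm)⟩, Subtype.ext (Prod.ext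
      ((congrArg (fun z _ => ew z) h4).trans e'.symm) rfl), h4⟩

/-- the family and the parameter -/
def gY (y : Bet g d (tauY hn)) : MY n g d × ℂ := (prY hn h y, zB hn y)

theorem gY_inj : Injective (gY (g := g) hn h) :=
  Quot.ind fun p => Quot.ind fun p' e => by
    obtain ⟨-, s, a, b, c⟩ := MF.pt_iff.1 (congrArg Prod.fst e)
    have e' : zY n p.1.1 = zY n p'.1.1 := congrArg Prod.snd e
    replace c : Cj s p.1.2 p'.1.2 := c
    refine Quot.sound ⟨s, a, b, ?_, c⟩
    rw [res_q hn h p, res_q hn h p', ← e', lgR, lgR, Matrix.mul_assoc,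
      Lg_semi _ (ν := (zeta n d)⁻¹ • wv p'.1.2 (cwd g))
        (by rw [Matrix.smul_mul, P275RL.cj_semi c b, Matrix.mul_smul]),
      nonsing_inv_mul_cancel_left _ _ b.isUnit]

theorem range_gY : range (gY (g := g) hn h) = {p | gd n d p.2 ∧ ew p.2 = p.1.par 0} := by
  refine Subset.antisymm (range_subset_iff.2 (Quot.ind fun p => ⟨gd_q hn h p, rfl⟩)) ?_
  rintro ⟨x, z⟩ ⟨k, e⟩
  obtain ⟨x, rfl⟩ := MF.onto x
  obtain ⟨p, rfl, rfl⟩ := ex_prF hn h x k e
  exact ⟨p.pt (tauY hn), rfl⟩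

theorem cont_ew : Continuous ew := by unfold ew; fun_prop

/-- **LOGQ** -/
theorem gY_emb (oq : IsOpenQuotientMap (MF.pt : FY n g d → _)) :
    IsEmbedding (gY (g := g) hn h) := by
  have h1 : IsInducing fun p : BFr g d (qY n) => p.1 := IsInducing.subtypeVal
  have h2 : Continuous fun p : BFr g d (qY n) => zY n p.1.1 :=
    (zY n).continuous_of_finiteDimensional.comp h1.continuous.fst
  have h3 : Continuous fun p : BFr g d (qY n) => (prF hn h p, zY n p.1.1) :=
    .prodMk (continuous_induced_rng.2 ((continuous_pi fun _ => cont_ew.comp h2).prodMk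
      h1.continuous.snd)) h2
  refine emb_quot (ϖ := BFr.pt (tauY hn)) (g := fun p => (prF hn h p, zY n p.1.1))
    isQuotientMap_quot_mk (oq.prodMap .id) ?_ (fun _ => rfl) (gY_inj hn h) fun a q e => ?_
  · refine isInducing_iff_nhds.2 fun p => le_antisymm (h3.tendsto p).le_comap ?_
    have h4 : Continuous fun a : FY n g d × ℂ => a.1.1.2 :=
      (continuous_subtype_val.comp continuous_fst).snd
    have h5 : ContinuousAt (fun a : FY n g d × ℂ => (lgR (d := d) a.2 a.1.1.2, a.1.1.2))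
        (prF hn h p, zY n p.1.1) := .prodMk (ContinuousAt.comp (g := fun a => Lg a.1 a.2)
          (f := fun a : FY n g d × ℂ => (dY n a.2, (zeta n d)⁻¹ • wv a.1.1.2 (cwd g)))
          (P275RL.Lg_an analyticAt_fst analyticAt_snd (h.nrt _ (gd_q hn h p))).continuousAt
          (Continuous.prodMk (by unfold dY; fun_prop)
            (((wv_cont (cwd g)).comp h4).const_smul (zeta n d)⁻¹)).continuousAt) h4.continuousAt
    have h6 : ∀ p : BFr g d (qY n), (lgR (d := d) (zY n p.1.1) p.1.2, p.1.2) = p.1 := fun p =>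
      Prod.ext (res_q hn h p).symm rfl
    have h7 := (h5.tendsto.comp (Filter.tendsto_comap (f := fun p : BFr g d (qY n) =>
      (prF hn h p, zY n p.1.1)))).congr h6
    exact (h1.tendsto_nhds_iff (f := id)).2 (h7.trans_eq (congrArg nhds (h6 p)))
  · obtain ⟨k, l⟩ := (range_gY hn h).le ⟨q, e.symm⟩
    obtain ⟨p, e1, e2⟩ := ex_prF hn h a.1 k l
    exact ⟨p, Prod.ext e1 e2⟩

include h in
/-- every admissible parameter has a generic logarithm in the strip -/
theorem ex_log {w : Fin 1 → ℂ} (k : w ∈ UY n d) :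
    ∃ z, gd n d z ∧ 0 ≤ z.re ∧ z.re < 1 ∧ ew z = w 0 := by
  let u := Complex.log (w 0) / (2 * π * Complex.I)
  let z := u - (⌊u.re⌋ : ℤ)
  have e : ew z = w 0 := by
    rw [ew, mul_sub, mul_div_cancel₀ _ Complex.two_pi_I_ne_zero, Complex.exp_sub,
      Complex.exp_log k.1, mul_comm, Complex.exp_int_mul_two_pi_mul_I, div_one]
  have h1 : z.re = Int.fract u.re := by simp [z]
  have h2 := h1 ▸ Int.fract_nonneg u.re
  have h3 := h1 ▸ Int.fract_lt_one u.re
  refine ⟨z, h.of z (mem_of_eq_of_mem (funext fun j => by rw [Subsingleton.elim j 0, e]) k)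
    fun j l => ?_, h2, h3, e⟩
  rw [l, Complex.intCast_re] at h2 h3
  have : (0 : ℤ) ≤ j := by exact_mod_cast h2
  have : j < 1 := by exact_mod_cast h3
  omega

theorem prY_onto : Surjective (prY (g := g) hn h) := Quot.ind fun x =>
  let ⟨z, a, _, _, b⟩ := ex_log h x.2.1
  let ⟨y, e⟩ : (x.pt, z) ∈ range (gY hn h) := (range_gY hn h).ge ⟨a, b⟩
  ⟨y, congrArg Prod.fst e⟩

include h in
theorem one_mem : (fun _ => 1) ∈ UY n d := by simpa [ew] using h.mem 0 h.zero

theorem tY_one (a : Fin n) : tY n d (fun _ => 1) a = zeta n d := by simp [tY]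

theorem zY_nk {R : Mx (Fin n)} (k : R ∈ nk n 0) : zY n R = 0 := by simp [zY, k.1 _ _ le_rfl]

theorem prY_ty (y : Bet g d (tauZ n 0)) :
    prY hn h (tyB (τ := tauZ n 0) (τ' := tauY hn) le_rfl (nk_le_qY 0) y) =
      nlM (one_mem h) tY_one y := by
  obtain ⟨p, rfl⟩ := P275B.pt_onto y
  exact congrArg MF.pt (Subtype.ext (Prod.ext (funext fun _ =>
    (congrArg ew (zY_nk p.2.1)).trans (by simp [ew, nlF])) rfl))

end Vale.Agent.P275TS
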