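import Vale.Agent.P275TS.Fib
import Vale.Agent.P275B.Ins

/-!
# P275, the family over the punctured line: the flat bundle over the curve
-/

set_option linter.unusedSectionVars false

open Set Function Topology Matrix
open Vale.Agent.P275GC (At)
open Vale.Agent.P275NA (Cy)
open Vale.Agent.P275MO Vale.Agent.P275Z Vale.Agent.P275RG Vale.Agent.P275BW Vale.Agent.P275MK
open Vale.Agent.P275B
open Vale.Agent.P275XB (Ok)

noncomputable section

namespace Vale.Agent.P275TS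

variable {C : Type} [TopologicalSpace C] [T2Space C] [CompactSpace C] {A : At C} {l : Cy A ℂ}
  {g n m a a' : ℕ} {d : ℤ} {hn : 2 ≤ n} (h : ARI n d) (D : RHD A l g n d)

variable (A l hn d) in
/-- flat objects with a generic parameter -/
def DD : Set (Mod A l (tauY hn)) := {y | y.lam = 1 ∧ y.η (0 : Fin 1) ∈ {z | gd n d z}}

theorem q_bor : ∀ R ∈ (tauY hn).q, R ∈ (tauY hn).H := fun _ k => k.1

include h in
theorem gen_DD (y : Mod A l (tauY hn)) : Gen d y.rep.1.R ↔ gd n d (y.η (0 : Fin 1)) :=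
  h.gen _ y.rep.2.2.1 _ (diag_q hn y.rep.2.2)

/-- the chart -/
def ψD (i : Fin D.N) : {y : DD A l d hn // y.1.x ∈ D.V i} ≃ₜ D.V i × Bet g d (tauY hn) :=
  Homeomorph.trans
    { toFun := fun y => ⟨y.1.1, y.1.2.1, y.2, (gen_DD h _).2 y.1.2.2⟩
      invFun := fun y => ⟨⟨y.1, y.2.1, (gen_DD h _).1 y.2.2.2⟩, y.2.2.1⟩
      left_inv := fun _ => rfl
      right_inv := fun _ => rfl
      continuous_toFun := (continuous_subtype_val.comp continuous_subtype_val).subtype_mk _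
      continuous_invFun := (continuous_subtype_val.subtype_mk _).subtype_mk _ }
    (D.Ψ (tauY hn) q_bor i)

include h in
theorem ex_moD (i : Fin D.N) (y : DD A l d hn) (hi : y.1.x ∈ D.V i) :
    ∃ (z : Ob A l (tauY hn)) (k : z.pt ∈ DD A l d hn) (p : BFr g d (qY n)), y = ⟨z.pt, k⟩ ∧
      p.1.1 = z.1.R ∧ D.Rel i z.1 p.1.2 := by
  obtain ⟨y, k⟩ := y
  obtain ⟨z, rfl⟩ := pt_surj y
  obtain ⟨⟨ρ, a⟩, b⟩ := D.spec _ q_bor i z ⟨k.1, hi, (gen_DD h _).2 k.2⟩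
  obtain ⟨p, e, -⟩ := b ρ a
  exact ⟨z, k, p, rfl, by rw [e], by rwa [e]⟩

theorem ψD_pt {i : Fin D.N} (z : Ob A l (tauY hn)) (k hi) {p : BFr g d (qY n)}
    (e : p.1.1 = z.1.R) (r : D.Rel i z.1 p.1.2) : ((ψD h D i ⟨⟨z.pt, k⟩, hi⟩).1 : C) = z.1.x ∧
      (ψD h D i ⟨⟨z.pt, k⟩, hi⟩).2 = p.pt (tauY hn) := by
  obtain ⟨p', e1, e2, e3⟩ := (D.spec _ q_bor i z ⟨k.1, hi, (gen_DD h _).2 k.2⟩).2 _ r
  obtain rfl : p = p' := Subtype.ext ((Prod.ext e rfl : p.1 = (z.1.R, p.1.2)).trans e1.symm)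
  exact ⟨e2, e3⟩

variable (hn) in
/-- the trivialisations -/
def tvD : Tv D.V (DD A l d hn) (Bet g d (tauY hn)) :=
  Tv.ofHomeo D.opn D.cov (p := fun y => y.1.x) (P275MB.cont_x.comp continuous_subtype_val)
    (ψD h D) (fun i y => by
      obtain ⟨y, hy⟩ := y
      obtain ⟨z, k, p, rfl, e1, r⟩ := ex_moD h D i y hy
      exact (ψD_pt h D z k hy e1 r).1)
    (fun i j => map _ (D.t j i)) fun i j y hi hj => by
      obtain ⟨z, k, p, rfl, e1, r⟩ := ex_moD h D j y hj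
      obtain ⟨ρ, r'⟩ := rel_ex D r hi
      obtain ⟨p', e2, -⟩ := (D.spec _ q_bor i z ⟨k.1, hi, (gen_DD h _).2 k.2⟩).2 _ r'
      have e3 : p'.1.1 = z.1.R := by rw [e2]
      have e4 : D.Rel i z.1 p'.1.2 := by rwa [e2]
      rw [(ψD_pt h D z k hi e3 e4).2, (ψD_pt h D z k hj e1 r).2]
      exact (pt_eqv q_bor (p := bap _ p) (e3.trans e1.symm) (e1.symm ▸ rel_tr D r hi e4)).symm

theorem tvD_q {i : Fin D.N} {y : DD A l d hn} (hi : y.1.x ∈ D.V i) :
    (tvD hn h D).q i y = (D.Ψ _ q_bor i ⟨y.1, y.2.1, hi, (gen_DD h _).2 y.2.2⟩).2 :=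
  Tv.ofHomeo_q D.opn D.cov (p := fun y : DD A l d hn => y.1.x) (z := y) hi

theorem zB_q {i : Fin D.N} {y : DD A l d hn} (hi : y.1.x ∈ D.V i) :
    zB hn ((tvD hn h D).q i y) = y.1.η (0 : Fin 1) := by
  obtain ⟨z, k, p, rfl, e1, r⟩ := ex_moD h D i y hi
  rw [P275MB.η_pt, ← e1]
  exact congrArg (zB hn) ((tvD_q h D hi).trans (ψD_pt h D z k hi e1 r).2)

variable (X : BV a m (epM : FY n g d → _) MF.pt)

include hn h in
theorem cocS : Coc (cv D) X.vr fun i j => MQ.map (D.t j i) :=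
  ⟨fun _ _ _ => alg_mapM X _, fun i ⟨_, k⟩ x => by
    obtain ⟨y, rfl⟩ := prY_onto hn h x
    exact (prY_map hn h _ y).symm.trans (congrArg _ ((tvD hn h D).t_self k y)),
    fun i j s ⟨_, k⟩ x => by
      obtain ⟨y, rfl⟩ := prY_onto hn h x
      simp only [← prY_map]
      exact congrArg _ ((tvD hn h D).t_t k.1.1 k.1.2 k.2 y)⟩

variable (hn)

/-- **the flat bundle of the family** -/
def FS : Fl (cv D) X.vr (1 + m) := (flex _ _ _ _ _ _ (cocS (hn := hn) h D X)).choose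

theorem FS_tr : (FS hn h D X).tr = fun i j => MQ.map (D.t j i) :=
  (flex _ _ _ _ _ _ (cocS (hn := hn) h D X)).choose_spec

theorem ex_fS : ∃ f, (FS hn h D X).Inv (fun _ x => MQ.par x 0) f :=
  (FS hn h D X).ex_inv fun _ _ _ x => by
    obtain ⟨z, rfl⟩ := MF.onto x
    rw [FS_tr]
    rfl

/-- the parameter -/
def fS : (FS hn h D X).T.X → ℂ := (ex_fS hn h D X).choose

theorem fS_inv : (FS hn h D X).Inv (fun _ x => MQ.par x 0) (fS hn h D X) :=
  (ex_fS hn h D X).choose_spec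

theorem ex_πS : ∃ f : DD A l d hn → (FS hn h D X).T.X, (∀ y, (FS hn h D X).q (f y) = y.1.x) ∧
    ∀ i y, y.1.x ∈ D.V i → (FS hn h D X).φ i (f y) = prY hn h ((tvD hn h D).q i y) :=
  (FS hn h D X).tv.ex_map (tvD hn h D) (g := id) (r := id) (φ := fun _ => prY hn h)
    (fun _ _ k => k) fun _ _ _ y => (prY_map hn h _ y).trans
      (congrFun (congrFun (congrFun (FS_tr hn h D X) _) _) _).symm

/-- forget the logarithm -/
def πS : DD A l d hn → (FS hn h D X).T.X := (ex_πS hn h D X).choose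

theorem πS_q (y : DD A l d hn) : (FS hn h D X).q (πS hn h D X y) = y.1.x :=
  (ex_πS hn h D X).choose_spec.1 y

theorem πS_φ {i : Fin D.N} {y : DD A l d hn} (hi : y.1.x ∈ D.V i) :
    (FS hn h D X).φ i (πS hn h D X y) = prY hn h ((tvD hn h D).q i y) :=
  (ex_πS hn h D X).choose_spec.2 i y hi

/-- the point of the family and the parameter -/
def gS (y : DD A l d hn) : (FS hn h D X).T.X × ℂ := (πS hn h D X y, y.1.η (0 : Fin 1))

theorem gS_q (i : Fin D.N) (y : DD A l d hn) (hi : y.1.x ∈ D.V i) :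
    ((FS hn h D X).tv.prodV ℂ).q i (gS hn h D X y) = gY hn h ((tvD hn h D).q i y) :=
  Prod.ext (πS_φ hn h D X hi) (zB_q h D hi).symm

theorem gS_emb : IsEmbedding (gS hn h D X) :=
  (Tv.Lc.of_map (F := (FS hn h D X).tv.prodV ℂ) (F' := tvD hn h D) (f := gS hn h D X) (g := id)
    (P := IsEmbedding) id (fun _ => gY hn h) (πS_q hn h D X) (fun _ _ k => k) (fun _ _ => gY_emb hn h
      ⟨X.quo.surjective, X.quo.continuous, X.qv'.isOpenMap⟩) (gS_q hn h D X)).emb .id fun _ k => k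

theorem range_gS : range (gS hn h D X) = {p | gd n d p.2 ∧ ew p.2 = fS hn h D X p.1} := by
  ext p
  refine (Tv.mem_range ((FS hn h D X).tv.prodV ℂ) (tvD hn h D) (f := gS hn h D X) (g := id)
    (r := id) (φ := fun _ => gY hn h) (πS_q hn h D X) (fun _ _ k => k) (gS_q hn h D X)).trans ?_
  refine ⟨fun ⟨i, x, k, e, u⟩ => ?_, fun u => ?_⟩
  · have v := (range_gY hn h).le u
    exact ⟨v.1, v.2.trans (fS_inv hn h D X i _ (mem_of_eq_of_mem e.symm k)).symm⟩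
  · obtain ⟨i, k⟩ := D.cov ((FS hn h D X).q p.1)
    exact ⟨i, _, k, rfl, (range_gY hn h).ge ⟨u.1, u.2.trans (fS_inv hn h D X i _ k)⟩⟩

theorem cont_πS : Continuous (πS hn h D X) := (gS_emb hn h D X).continuous.fst

theorem fS_πS (y : DD A l d hn) : fS hn h D X (πS hn h D X y) = ew (y.1.η (0 : Fin 1)) :=
  ((range_gS hn h D X).le (mem_range_self y)).2.symm

theorem cov_fS (t : (FS hn h D X).T.X) :
    ∃ z ∈ {z | gd n d z}, 0 ≤ z.re ∧ z.re < 1 ∧ ew z = fS hn h D X t := by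
  obtain ⟨i, k⟩ := D.cov ((FS hn h D X).q t)
  obtain ⟨x, e⟩ := MF.onto ((FS hn h D X).φ i t)
  rw [fS_inv hn h D X i t k, ← e]
  exact ex_log h x.2.1

/-- **the flat objects are the logarithms of the parameter** -/
def eS : DD A l d hn ≃ₜ
    {p : (FS hn h D X).T.X × ℂ // p.2 ∈ {z | gd n d z} ∧ ew p.2 = fS hn h D X p.1} :=
  (gS_emb hn h D X).toHomeomorph.trans (.setCongr (range_gS hn h D X))

theorem eS_val (y : DD A l d hn) :
    (eS hn h D X y).1 = (πS hn h D X y, y.1.η (0 : Fin 1)) := rfl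

/-- objects with the same pole, the same tuple and the same parameter -/
theorem πS_eq {y y' : DD A l d hn} {i : Fin D.N} (hi : y.1.x ∈ D.V i) (e : y'.1.x = y.1.x)
    {p p' : BFr g d (qY n)} (h1 : (tvD hn h D).q i y = p.pt (tauY hn))
    (h2 : (tvD hn h D).q i y' = p'.pt (tauY hn)) (h3 : p'.1.2 = p.1.2)
    (h4 : ew (y'.1.η (0 : Fin 1)) = ew (y.1.η (0 : Fin 1))) : πS hn h D X y' = πS hn h D X y := by
  have hi' : y'.1.x ∈ D.V i := e ▸ hi
  refine Fl.ext' (i := i) ((πS_q hn h D X y').symm ▸ hi') (by rw [πS_q, πS_q, e]) ?_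
  rw [← zB_q h D hi, ← zB_q h D hi', h1, h2] at h4
  rw [πS_φ hn h D X hi, πS_φ hn h D X hi', h1, h2]
  exact congrArg MF.pt (Subtype.ext (Prod.ext (funext fun _ => h4) h3))

/-- nilpotent residues -/
def jS (y : Sc A l (tauZ n 0)) : DD A l d hn :=
  ⟨P275MB.ty (τ := tauZ n 0) (τ' := tauY hn) le_rfl (nk_le_qY 0) y.1,
    (P275MM.ty_lam _ _ y.1).trans y.2, by
      obtain ⟨z, e⟩ := pt_surj y.1
      rw [← e]
      exact mem_of_eq_of_mem ((congrFun (P275MB.η_pt ⟨z.1, _⟩) _).trans (zY_nk z.2.2)) h.zero⟩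

variable [Ok g n d] {m' : ℕ} (Y : BN g 0 d (le_refl (bor n)) a' m')

theorem hm_S : Hm0 (FZ D Y) (FS hn h D X) (fun _ => nlM (one_mem h) tY_one)
    fun y => πS hn h D X (jS hn h y) := by
  refine ⟨P281Z.holM_id, fun _ _ k => k, fun _ => alg_nlM X _ _ Y, fun y =>
    (πS_q hn h D X _).trans (P275MM.ty_x (τ := tauZ n 0) (τ' := tauY hn) le_rfl
      (nk_le_qY 0) y.1), fun i y hi => ?_⟩
  obtain ⟨z, k, p, rfl, hi', e1, r⟩ := ex_mo D (τ := tauZ n 0) (fun _ => nk_bor)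
    (fun _ => gen_nk (g := g)) i y hi
  have e2 : (FZ D Y).φ i ⟨z.pt, k⟩ = p.pt _ := flS_φ D _ _ _ _ i z k p hi' e1 r
  rw [e2, ← prY_ty hn h]
  exact (πS_φ hn h D X (y := jS hn h ⟨z.pt, k⟩) hi').trans (congrArg _ ((tvD_q h D hi').trans
    (ψD_pt h D ⟨z.1, P275MM.isOb_le z.2 (nk_le_qY 0)⟩ _ hi' (p := inF (nk_le_qY 0) p) e1 r).2))

end Vale.Agent.P275TS
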